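import Vale.Agent.Lib.P249.helper62.GridDefs
import Vale.Agent.Lib.P249.helper91.PLLevel
import Vale.Agent.Lib.P249.helper72.PLSqOf

/-!
# P249 grid lower bound, job GRID-C: the one-coordinate inequality `grid_one`

`grid_one_of_pl_sq` derives the one-coordinate inequality for the discrete Gaussian weights from
the multiplicative discrete Prekopa-Leindler inequality `pl_sq` (taken as a hypothesis here, in
the exact form of job GRID-B).
-/

open Finset
open scoped Pointwise
open Vale.Agent.Lib.P249.H62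

namespace Vale.Agent.Lib.P249.H70

/-- even/odd splitting of a sum over `range (2 * m + 1)` -/
theorem sum_range_even_odd (H : ℕ → ℝ) (m : ℕ) :
    ∑ z ∈ range (2 * m + 1), H z
      = ∑ n ∈ range (m + 1), H (2 * n) + ∑ n ∈ range m, H (2 * n + 1) := by
  induction m with
  | zero => simp
  | succ m ih =>
    have e : 2 * (m + 1) + 1 = (2 * m + 1) + 1 + 1 := by ring
    rw [e, Finset.sum_range_succ, Finset.sum_range_succ, ih,
      Finset.sum_range_succ (fun n => H (2 * n)) (m + 1),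
      Finset.sum_range_succ (fun n => H (2 * n + 1)) m]
    have e2 : 2 * (m + 1) = 2 * m + 1 + 1 := by ring
    rw [e2]
    ring

/-- the Gaussian profile on the naturals, centred at `M` -/
noncomputable def phiN (M : ℕ) (n : ℕ) : ℝ := Real.exp (-((n : ℝ) - M) ^ 2 / (M : ℝ) ^ 2)

theorem phiN_nonneg (M n : ℕ) : 0 ≤ phiN M n := (Real.exp_pos _).le

theorem phiN_center (M : ℕ) : phiN M M = 1 := by
  unfold phiN
  simp

theorem gphi_eq_phiN (M : ℕ) (t : Fin (2 * M + 1)) : gphi M t = phiN M t := by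
  unfold gphi gv phiN
  rfl

theorem gZ_eq_sum_range (M : ℕ) : gZ M = ∑ n ∈ range (2 * M + 1), phiN M n := by
  unfold gZ
  rw [← Fin.sum_univ_eq_sum_range (fun n => phiN M n) (2 * M + 1)]
  exact Finset.sum_congr rfl (fun t _ => gphi_eq_phiN M t)

/-- the sum of the profile `exp (-(z - 2M)^2 / (4 M^2))` over `z < 4M + 1` is at most
`2 * gZ M + 1` -/
theorem sum_H_le (M : ℕ) (hM : 1 ≤ M) :
    ∑ z ∈ range (2 * (2 * M) + 1), Real.exp (-((z : ℝ) - 2 * M) ^ 2 / (4 * (M : ℝ) ^ 2))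
      ≤ 2 * gZ M + 1 := by
  have hMpos : (0 : ℝ) < M := by exact_mod_cast hM
  rw [sum_range_even_odd]
  -- even part
  have heven : ∑ n ∈ range (2 * M + 1),
      Real.exp (-(((2 * n : ℕ) : ℝ) - 2 * M) ^ 2 / (4 * (M : ℝ) ^ 2)) = gZ M := by
    rw [gZ_eq_sum_range]
    refine Finset.sum_congr rfl (fun n _ => ?_)
    unfold phiN
    congr 1
    push_cast
    field_simp
    ring
  -- odd part
  have hodd_term : ∀ n ∈ range (2 * M),
      Real.exp (-(((2 * n + 1 : ℕ) : ℝ) - 2 * M) ^ 2 / (4 * (M : ℝ) ^ 2))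
        ≤ if M ≤ n then phiN M n else phiN M (n + 1) := by
    intro n _
    split_ifs with hn
    · unfold phiN
      apply Real.exp_le_exp.mpr
      have hn' : (M : ℝ) ≤ n := by exact_mod_cast hn
      have h1 : ((n : ℝ) - M) ^ 2 ≤ (((2 * n + 1 : ℕ) : ℝ) - 2 * M) ^ 2 / 4 := by
        push_cast
        nlinarith
      have h2 : -(((2 * n + 1 : ℕ) : ℝ) - 2 * M) ^ 2 / (4 * (M : ℝ) ^ 2)
          = -((((2 * n + 1 : ℕ) : ℝ) - 2 * M) ^ 2 / 4) / (M : ℝ) ^ 2 := by
        field_simp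
      rw [h2]
      apply div_le_div_of_nonneg_right _ (by positivity)
      linarith
    · unfold phiN
      apply Real.exp_le_exp.mpr
      have hn' : (n : ℝ) + 1 ≤ M := by
        have : n + 1 ≤ M := by omega
        exact_mod_cast this
      have h1 : (((n + 1 : ℕ) : ℝ) - M) ^ 2 ≤ (((2 * n + 1 : ℕ) : ℝ) - 2 * M) ^ 2 / 4 := by
        push_cast
        nlinarith
      have h2 : -(((2 * n + 1 : ℕ) : ℝ) - 2 * M) ^ 2 / (4 * (M : ℝ) ^ 2)
          = -((((2 * n + 1 : ℕ) : ℝ) - 2 * M) ^ 2 / 4) / (M : ℝ) ^ 2 := by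
        field_simp
      rw [h2]
      apply div_le_div_of_nonneg_right _ (by positivity)
      linarith
  have hodd : ∑ n ∈ range (2 * M),
      Real.exp (-(((2 * n + 1 : ℕ) : ℝ) - 2 * M) ^ 2 / (4 * (M : ℝ) ^ 2)) ≤ gZ M + 1 := by
    refine (Finset.sum_le_sum hodd_term).trans ?_
    have hsplit : ∑ n ∈ range (2 * M), (if M ≤ n then phiN M n else phiN M (n + 1))
        = ∑ n ∈ range M, phiN M (n + 1) + ∑ n ∈ Ico M (2 * M), phiN M n := by
      rw [← Finset.sum_range_add_sum_Ico _ (show M ≤ 2 * M by omega)]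
      congr 1
      · refine Finset.sum_congr rfl (fun n hn => ?_)
        have : ¬ M ≤ n := by
          have := Finset.mem_range.mp hn
          omega
        simp [this]
      · refine Finset.sum_congr rfl (fun n hn => ?_)
        have : M ≤ n := (Finset.mem_Ico.mp hn).1
        simp [this]
    rw [hsplit]
    have h1 : ∑ n ∈ range M, phiN M (n + 1) ≤ ∑ n ∈ range (M + 1), phiN M n := by
      rw [Finset.sum_range_succ' (fun n => phiN M n) M]
      have := phiN_nonneg M 0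
      linarith
    have h2 : ∑ n ∈ Ico M (2 * M), phiN M n ≤ 1 + ∑ n ∈ Ico (M + 1) (2 * M + 1), phiN M n := by
      rw [Finset.sum_eq_sum_Ico_succ_bot (show M < 2 * M by omega), phiN_center]
      have : ∑ n ∈ Ico (M + 1) (2 * M), phiN M n ≤ ∑ n ∈ Ico (M + 1) (2 * M + 1), phiN M n := by
        apply Finset.sum_le_sum_of_subset_of_nonneg
        · intro n hn
          simp only [Finset.mem_Ico] at hn ⊢
          omega
        · intro n _ _
          exact phiN_nonneg M n
      linarith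
    have h3 : ∑ n ∈ range (M + 1), phiN M n + ∑ n ∈ Ico (M + 1) (2 * M + 1), phiN M n = gZ M := by
      rw [gZ_eq_sum_range]
      exact Finset.sum_range_add_sum_Ico _ (by omega)
    linarith
  have heven' : ∑ n ∈ range (2 * M + 1),
      Real.exp (-(((2 * n : ℕ) : ℝ) - 2 * M) ^ 2 / (4 * (M : ℝ) ^ 2)) = gZ M := heven
  push_cast at heven' hodd ⊢
  linarith

/-- extension of a function on `Fin n` to the naturals by zero -/
noncomputable def ext0 {n : ℕ} (a : Fin n → ℝ) (i : ℕ) : ℝ := if h : i < n then a ⟨i, h⟩ else 0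

theorem ext0_coe {n : ℕ} (a : Fin n → ℝ) (t : Fin n) : ext0 a t = a t := by
  unfold ext0
  simp [t.isLt]

theorem ext0_nonneg {n : ℕ} (a : Fin n → ℝ) (ha : ∀ t, 0 ≤ a t) (i : ℕ) : 0 ≤ ext0 a i := by
  unfold ext0
  split_ifs with h
  · exact ha _
  · exact le_rfl

theorem sum_gphi_mul (M : ℕ) (a : Fin (2 * M + 1) → ℝ) :
    ∑ t, gphi M t * a t = ∑ n ∈ range (2 * M + 1), phiN M n * ext0 a n := by
  rw [← Fin.sum_univ_eq_sum_range (fun n => phiN M n * ext0 a n) (2 * M + 1)]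
  refine Finset.sum_congr rfl (fun t _ => ?_)
  rw [gphi_eq_phiN, ext0_coe]

/-- Job GRID-C with the upstream inequality `pl_sq` (job GRID-B) as a hypothesis. -/
theorem grid_one_of_pl_sq
    (pl_sq : ∀ (A B : Finset ℕ) (F G H : ℕ → ℝ),
      (∀ x ∈ A, 0 ≤ F x) → (∀ y ∈ B, 0 ≤ G y) → (∀ z, 0 ≤ H z) →
      (∀ x ∈ A, ∀ y ∈ B, F x * G y ≤ H (x + y) ^ 2) →
      (∀ x ∈ A, ∀ y ∈ B, F x * G y ≤ 1) →
      4 * ((∑ x ∈ A, F x) * (∑ y ∈ B, G y)) ≤ (∑ z ∈ A + B, H z + 1) ^ 2)
    (M : ℕ) (hM : 1 ≤ M) (a b : Fin (2 * M + 1) → ℝ) (N : ℝ)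
    (ha : ∀ t, 0 ≤ a t) (hb : ∀ t, 0 ≤ b t) (hN : 0 ≤ N)
    (h : ∀ t t', b t * a t' ≤ N * Real.exp ((gv M t - gv M t') ^ 2 / (2 * (M : ℝ) ^ 2))) :
    (∑ t, gphi M t * b t) * (∑ t, gphi M t * a t) ≤ N * (gZ M + 1) ^ 2 := by
  have hMpos : (0 : ℝ) < M := by exact_mod_cast hM
  rcases eq_or_lt_of_le hN with hN0 | hNpos
  · -- N = 0
    rw [← hN0, zero_mul, Finset.sum_mul_sum]
    apply Finset.sum_nonpos
    intro t _
    apply Finset.sum_nonpos
    intro t' _
    have h1 : b t * a t' ≤ 0 := by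
      have := h t t'
      rw [← hN0, zero_mul] at this
      exact this
    have h2 : 0 ≤ gphi M t * gphi M t' := mul_nonneg (Real.exp_pos _).le (Real.exp_pos _).le
    have : gphi M t * b t * (gphi M t' * a t') = (gphi M t * gphi M t') * (b t * a t') := by ring
    rw [this]
    exact mul_nonpos_of_nonneg_of_nonpos h2 h1
  · -- N > 0
    set F : ℕ → ℝ := fun n => phiN M n * ext0 b n / N with hF
    set G : ℕ → ℝ := fun n => phiN M n * ext0 a n with hG
    set H : ℕ → ℝ := fun z => Real.exp (-((z : ℝ) - 2 * M) ^ 2 / (4 * (M : ℝ) ^ 2)) with hH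
    have hF0 : ∀ x ∈ range (2 * M + 1), 0 ≤ F x := fun x _ =>
      div_nonneg (mul_nonneg (phiN_nonneg M x) (ext0_nonneg b hb x)) hNpos.le
    have hG0 : ∀ y ∈ range (2 * M + 1), 0 ≤ G y := fun y _ =>
      mul_nonneg (phiN_nonneg M y) (ext0_nonneg a ha y)
    have hH0 : ∀ z, 0 ≤ H z := fun z => (Real.exp_pos _).le
    have hkey : ∀ x ∈ range (2 * M + 1), ∀ y ∈ range (2 * M + 1),
        F x * G y ≤ H (x + y) ^ 2 := by
      intro x hx y hy
      have hx' : x < 2 * M + 1 := Finset.mem_range.mp hx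
      have hy' : y < 2 * M + 1 := Finset.mem_range.mp hy
      have hba := h ⟨x, hx'⟩ ⟨y, hy'⟩
      have hbx : ext0 b x = b ⟨x, hx'⟩ := by unfold ext0; simp [hx']
      have hay : ext0 a y = a ⟨y, hy'⟩ := by unfold ext0; simp [hy']
      have hgx : gv M ⟨x, hx'⟩ = (x : ℝ) - M := rfl
      have hgy : gv M ⟨y, hy'⟩ = (y : ℝ) - M := rfl
      rw [hgx, hgy] at hba
      have e1 : F x * G y = phiN M x * phiN M y * (b ⟨x, hx'⟩ * a ⟨y, hy'⟩) / N := by
        simp only [hF, hG, hbx, hay]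
        ring
      have e2 : phiN M x * phiN M y * (b ⟨x, hx'⟩ * a ⟨y, hy'⟩) / N
          ≤ phiN M x * phiN M y
            * Real.exp (((x : ℝ) - M - ((y : ℝ) - M)) ^ 2 / (2 * (M : ℝ) ^ 2)) := by
        rw [div_le_iff₀ hNpos]
        have hpp : 0 ≤ phiN M x * phiN M y := mul_nonneg (phiN_nonneg M x) (phiN_nonneg M y)
        calc phiN M x * phiN M y * (b ⟨x, hx'⟩ * a ⟨y, hy'⟩)
            ≤ phiN M x * phiN M y
              * (N * Real.exp (((x : ℝ) - M - ((y : ℝ) - M)) ^ 2 / (2 * (M : ℝ) ^ 2))) :=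
              mul_le_mul_of_nonneg_left hba hpp
          _ = phiN M x * phiN M y
              * Real.exp (((x : ℝ) - M - ((y : ℝ) - M)) ^ 2 / (2 * (M : ℝ) ^ 2)) * N := by ring
      have e3 : phiN M x * phiN M y
            * Real.exp (((x : ℝ) - M - ((y : ℝ) - M)) ^ 2 / (2 * (M : ℝ) ^ 2))
          = H (x + y) ^ 2 := by
        simp only [hH, phiN]
        rw [← Real.exp_add, ← Real.exp_add, ← Real.exp_nat_mul]
        congr 1
        push_cast
        field_simp
        ring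
      rw [e1]
      exact e2.trans e3.le
    have hone : ∀ x ∈ range (2 * M + 1), ∀ y ∈ range (2 * M + 1), F x * G y ≤ 1 := by
      intro x hx y hy
      refine (hkey x hx y hy).trans ?_
      have : H (x + y) ≤ 1 := by
        simp only [hH]
        rw [← Real.exp_zero]
        apply Real.exp_le_exp.mpr
        apply div_nonpos_of_nonpos_of_nonneg
        · nlinarith [sq_nonneg ((↑(x + y) : ℝ) - 2 * M)]
        · positivity
      have h0 := hH0 (x + y)
      nlinarith
    have hpl := pl_sq (range (2 * M + 1)) (range (2 * M + 1)) F G H hF0 hG0 hH0 hkey hone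
    have hsub : range (2 * M + 1) + range (2 * M + 1) ⊆ range (2 * (2 * M) + 1) := by
      intro z hz
      obtain ⟨x, hx, y, hy, rfl⟩ := Finset.mem_add.mp hz
      have := Finset.mem_range.mp hx
      have := Finset.mem_range.mp hy
      exact Finset.mem_range.mpr (by omega)
    have hsumH : ∑ z ∈ range (2 * M + 1) + range (2 * M + 1), H z ≤ 2 * gZ M + 1 :=
      (Finset.sum_le_sum_of_subset_of_nonneg hsub (fun z _ _ => hH0 z)).trans (sum_H_le M hM)
    have hsumH0 : 0 ≤ ∑ z ∈ range (2 * M + 1) + range (2 * M + 1), H z :=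
      Finset.sum_nonneg (fun z _ => hH0 z)
    have hF_sum : ∑ x ∈ range (2 * M + 1), F x = (∑ t, gphi M t * b t) / N := by
      rw [sum_gphi_mul, Finset.sum_div]
    have hG_sum : ∑ y ∈ range (2 * M + 1), G y = ∑ t, gphi M t * a t := by
      rw [sum_gphi_mul]
    rw [hF_sum, hG_sum] at hpl
    have hsq : (∑ z ∈ range (2 * M + 1) + range (2 * M + 1), H z + 1) ^ 2
        ≤ (2 * gZ M + 2) ^ 2 := by
      apply pow_le_pow_left₀ (by linarith)
      linarith
    have hfin : (∑ t, gphi M t * b t) / N * (∑ t, gphi M t * a t) ≤ (gZ M + 1) ^ 2 := by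
      nlinarith
    have : (∑ t, gphi M t * b t) * (∑ t, gphi M t * a t)
        = N * ((∑ t, gphi M t * b t) / N * (∑ t, gphi M t * a t)) := by
      field_simp
    rw [this]
    exact mul_le_mul_of_nonneg_left hfin hNpos.le

/-- Job GRID-C: the one-coordinate inequality for the discrete Gaussian weights. -/
theorem grid_one (M : ℕ) (hM : 1 ≤ M) (a b : Fin (2 * M + 1) → ℝ) (N : ℝ)
    (ha : ∀ t, 0 ≤ a t) (hb : ∀ t, 0 ≤ b t) (hN : 0 ≤ N)
    (h : ∀ t t', b t * a t' ≤ N * Real.exp ((gv M t - gv M t') ^ 2 / (2 * (M : ℝ) ^ 2))) :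
    (∑ t, gphi M t * b t) * (∑ t, gphi M t * a t) ≤ N * (gZ M + 1) ^ 2 :=
  grid_one_of_pl_sq
    (fun A B F G H hF0 hG0 hH0 hH h1 =>
      Vale.Agent.Lib.P249.H72.pl_sq_of_level
        (fun A B F G H m h1 h2 h3 h4 h5 h6 h7 =>
          Vale.Agent.Lib.P249.H91.pl_level A B F G H m h1 h2 h3 h4 h5 h6 h7)
        A B F G H hF0 hG0 hH0 hH h1)
    M hM a b N ha hb hN h

end Vale.Agent.Lib.P249.H70
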